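import Mathlib
import Vale.Agent.P243.Cover
import Vale.Agent.P243.BoundDefs

open Set Vale.Agent.P243

theorem Vale.Agent.Results.P243.AboveOneThird.result
    (K : Set Space3) (hconv : Convex ℝ K) (hcomp : IsCompact K) (hint : (interior K).Nonempty)
    (m : ℕ) (u : Fin m → Space3) (hu : ∀ i, ‖u i‖ = 1) (B : ∀ i, Set (plane (u i)))
    (hcover : K ⊆ ⋃ i, cyl (u i) (B i)) :
    ENNReal.ofReal (1 / 3 + 1 / 10 ^ 17) ≤ ∑ i, area (u i) (B i) / shadow (u i) K :=
  Vale.Agent.P243.cover_bound hconv hcomp hint u hu B hcover
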