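import Vale.Agent.P243.Half.Main
import Vale.Agent.P243.Defs

namespace Vale.Agent.Results.P243.HalfAreaFalse

open Vale.Agent.P243

/-- Bang's half-area question has a negative answer. -/
theorem result :
    ∃ K : Set (EuclideanSpace ℝ (Fin 3)), Convex ℝ K ∧ IsCompact K ∧ (interior K).Nonempty ∧
      ∃ (m : ℕ) (u : Fin m → EuclideanSpace ℝ (Fin 3)) (B : (i : Fin m) → Set (perp (u i))),
        (∀ i, IsBase (u i) (B i)) ∧ K ⊆ ⋃ i, cylinder (u i) (B i) ∧
        ∃ c : ℝ, c < 1 / 2 ∧ ∀ v : EuclideanSpace ℝ (Fin 3), ‖v‖ = 1 →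
          ∑ i, area (B i) ≤ c * area (shadow K v) :=
  ⟨tetra, convex_tetra, isCompact_tetra, interior_tetra_nonempty, Half.half_area_false⟩

end Vale.Agent.Results.P243.HalfAreaFalse
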