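import Vale.Agent.P243.TetraEight

namespace Vale.Agent.Results.P243.StrongFormFalse

open Vale.Agent.P243

theorem result :
    ∃ K : Set (EuclideanSpace ℝ (Fin 3)), Convex ℝ K ∧ IsCompact K ∧ (interior K).Nonempty ∧
      ∃ (u : Fin 8 → EuclideanSpace ℝ (Fin 3)) (B : (i : Fin 8) → Set (perp (u i))),
        (∀ i, IsBase (u i) (B i)) ∧ K ⊆ ⋃ i, cylinder (u i) (B i) ∧
        ∑ i, area (B i) / area (shadow K (u i)) ≤ 4759 / 10000 :=
  let ⟨u, B, h⟩ := Eight.eight_covering
  ⟨tetra, convex_tetra, isCompact_tetra, interior_tetra_nonempty, u, B, h⟩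

end Vale.Agent.Results.P243.StrongFormFalse
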