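import Mathlib
import Vale.Agent.P243.Symmetric
import Vale.Agent.P243.BoundDefs

open Set Vale.Agent.P243

/-- Bang's half-area inequality for every centrally symmetric convex body in three-space, with
the constant `π / (4 √2) > 1 / 2`. -/
theorem Vale.Agent.Results.P243.SymmetricBodies.result
    (K : Set Space3) (hconv : Convex ℝ K) (hcomp : IsCompact K) (hint : (interior K).Nonempty)
    (p : Space3) (hsym : ∀ x ∈ K, (2:ℝ) • p - x ∈ K)
    (m : ℕ) (u : Fin m → Space3) (hu : ∀ i, ‖u i‖ = 1) (B : ∀ i, Set (plane (u i)))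
    (hcover : K ⊆ ⋃ i, cyl (u i) (B i)) :
    ∃ w : Space3, ‖w‖ = 1 ∧
      ENNReal.ofReal (Real.pi / (4 * √2)) * shadow w K ≤ ∑ i, area (u i) (B i) :=
  Vale.Agent.P243.Symm.symmetric_bound hconv hcomp hint p hsym u hu B hcover
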